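import Vale.Agent.P153.JG.NormB

/-!
# P153-F: plane, Jordan domains, prescribed boundary values and logarithmic growth in one theorem
-/

set_option autoImplicit false

namespace Vale.Agent.P153.JG

open Vale.Agent.P153.F.Dom

theorem exu {α : Type} {S : Finset α} {s t : α} (h : s ≠ t) :
    (∃! x, x ∈ S ∧ (x = s ∨ x = t)) ↔ ¬ (s ∈ S ↔ t ∈ S) := by
  constructor
  · rintro ⟨x, ⟨h1, h2⟩, h3⟩ h4
    rcases h2 with rfl | rfl
    · exact h (h3 t ⟨h4.1 h1, Or.inr rfl⟩).symm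
    · exact h (h3 s ⟨h4.2 h1, Or.inl rfl⟩)
  · intro h4
    by_cases hs : s ∈ S
    · have ht : t ∉ S := fun ht => h4 ⟨fun _ => ht, fun _ => hs⟩
      refine ⟨s, ⟨hs, Or.inl rfl⟩, ?_⟩
      rintro y ⟨h5, rfl | rfl⟩
      · rfl
      · exact absurd h5 ht
    · have ht : t ∈ S := by
        by_contra ht
        exact h4 ⟨fun h => absurd h hs, fun h => absurd h ht⟩
      refine ⟨t, ⟨ht, Or.inr rfl⟩, ?_⟩
      rintro y ⟨h5, rfl | rfl⟩
      · exact absurd h5 hs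
      · rfl

/-- The edges of `p` are exactly the edges of the lattice which belong to exactly one triangle of
`S`. -/
def Encloses3 {n : ℕ} (p : ZMod n → ℤ × ℤ) (S : Finset ((ℤ × ℤ) × Bool)) : Prop :=
  ∀ a b, GFF.Adj a b → (IsEdge p a b ↔ ∃! t, t ∈ S ∧ a ∈ corners t ∧ b ∈ corners t)

theorem cor1 (v : ℤ × ℤ) (t : (ℤ × ℤ) × Bool) :
    (v ∈ corners t ∧ v + (1, 0) ∈ corners t) ↔ (t = (v, false) ∨ t = (v - (0, 1), true)) := by
  obtain ⟨⟨a, b⟩, c⟩ := t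
  obtain ⟨x, y⟩ := v
  cases c <;> simp [corners] <;> omega

theorem cor2 (v : ℤ × ℤ) (t : (ℤ × ℤ) × Bool) :
    (v ∈ corners t ∧ v + (0, 1) ∈ corners t) ↔ (t = (v, false) ∨ t = (v - (1, 0), true)) := by
  obtain ⟨⟨a, b⟩, c⟩ := t
  obtain ⟨x, y⟩ := v
  cases c <;> simp [corners] <;> omega

theorem cor3 (v : ℤ × ℤ) (t : (ℤ × ℤ) × Bool) :
    (v + (1, 0) ∈ corners t ∧ v + (0, 1) ∈ corners t) ↔ (t = (v, false) ∨ t = (v, true)) := by
  obtain ⟨⟨a, b⟩, c⟩ := t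
  obtain ⟨x, y⟩ := v
  cases c <;> simp [corners] <;> omega

theorem encl_of {n : ℕ} {p : ZMod n → ℤ × ℤ} {S : Finset ((ℤ × ℤ) × Bool)}
    (h : Encloses3 p S) : Encloses p S := by
  refine ⟨fun v => ?_, fun v => ?_, fun v => ?_⟩
  · have ha : GFF.Adj v (v + (1, 0)) := by simp [GFF.Adj]
    rw [h _ _ ha]
    simp only [cor1]
    exact exu (by simp)
  · have ha : GFF.Adj v (v + (0, 1)) := by simp [GFF.Adj]
    rw [h _ _ ha]
    simp only [cor2]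
    exact exu (by simp)
  · have ha : GFF.Adj (v + (1, 0)) (v + (0, 1)) := by simp [GFF.Adj]
    rw [h _ _ ha]
    simp only [cor3]
    exact exu (by simp)

end Vale.Agent.P153.JG

open MeasureTheory ProbabilityTheory Filter Topology

namespace Vale.Agent.P153.JG5

open Vale.Agent.P153.JG3 (Law Prob len unif CoConnected HeightsOn IsLocalLimit interp
  TestOn ToGauss V Tri corners verts Heights HeightsB Near pt region fld)

/-- The simple closed lattice polygon `p` encloses exactly the triangles in `S`. -/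
def Encl {n : ℕ} (p : ZMod n → ℤ × ℤ) (S : Finset Tri) : Prop :=
  2 < n ∧ Function.Injective p ∧ (∀ i, JG3.Adj (p i) (p (i + 1))) ∧ ∀ a b, JG3.Adj a b →
    ((∃ i, s(p i, p (i + 1)) = s(a, b)) ↔ ∃! t, t ∈ S ∧ a ∈ corners t ∧ b ∈ corners t)

/-- Lattice polygons approximating the domain `D`. -/
def Approx (D : Set (ℝ × ℝ)) (δ : ℕ → ℝ) (N : ℕ → ℕ) (p : ∀ n, ZMod (N n) → ℤ × ℤ)
    (S : ℕ → Finset Tri) : Prop :=
  (∀ n, 0 < δ n ∧ Encl (p n) (S n)) ∧ Tendsto δ atTop (𝓝 0) ∧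
  (∀ ε > 0, ∀ᶠ n in atTop, ∀ i, ∃ z ∈ D, dist (δ n • pt (p n i)) z < ε) ∧
  ∀ K ⊆ D, IsCompact K → ∀ᶠ n in atTop, K ⊆ region (δ n) (S n)

theorem poly_of {n : ℕ} {p : ZMod n → ℤ × ℤ} {S : Finset Tri} (h : Encl p S) :
    F.Dom.IsPolygon p :=
  (JG3.poly_iff p).1 ⟨h.1, h.2.1, h.2.2.1⟩

theorem encl_of {n : ℕ} {p : ZMod n → ℤ × ℤ} {S : Finset Tri} (h : Encl p S) :
    F.Dom.Encloses p S := by
  refine JG.encl_of fun a b hab => ?_
  have h1 := h.2.2.2 a b ((JG3.adj_iff a b).2 hab)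
  simp only [Sym2.eq_iff] at h1
  exact h1

theorem approx_of {D : Set (ℝ × ℝ)} {δ : ℕ → ℝ} {N : ℕ → ℕ} {p : ∀ n, ZMod (N n) → ℤ × ℤ}
    {S : ℕ → Finset Tri} (h : Approx D δ N p S) : JG.Approx D δ N p S :=
  ⟨fun n => ⟨(h.1 n).1, poly_of (h.1 n).2, encl_of (h.1 n).2⟩, h.2⟩

/-- Everything. -/
def Shape5 : Prop := ∃ P : Law, ∃ hP : Prob P,
    (∀ D : ℕ → Finset (ℤ × ℤ), (∀ n, CoConnected (D n)) → (∀ x, ∀ᶠ n in atTop, x ∈ D n) →
      IsLocalLimit P D) ∧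
    ∃ κ : ℝ, 0 ≤ κ ∧
      Tendsto (fun x => JG3.mean P (fun h => ((h x - h 0 : ℤ) : ℝ) ^ 2) / Real.log (len x)) cofinite
        (𝓝 (κ / Real.pi)) ∧
      (∀ f : ℝ × ℝ → ℝ, TestOn Set.univ f → ∫ x, f x = 0 →
        ToGauss (𝓝[>] 0) (fun _ => P) (fun _ => hP)
          (fun δ h => ∫ z : ℝ × ℝ, interp h (z.1 / δ, z.2 / δ) * f z)
          (κ * ∫ x, ∫ y, -(2 * Real.pi)⁻¹ *
            Real.log (√((x.1 - y.1) ^ 2 + (x.2 - y.2) ^ 2)) * f x * f y)) ∧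
      ((∃ c > 0, ∀ (D : Finset (ℤ × ℤ)) (n : ℕ), CoConnected D → (∀ x, len x ≤ n → x ∈ D) →
        c * Real.log n ≤ JG3.mean (unif {h | (∀ x, x ∉ D → h x = 0) ∧
          ∀ x y, JG3.Adj x y → |h x - h y| ≤ 1}) fun h => (h 0 : ℝ) ^ 2) → 0 < κ) ∧
      (0 < κ → ∀ (Φ : (ℝ × ℝ) ≃ₜ (ℝ × ℝ)) (D : Set (ℝ × ℝ)),
        D = Φ '' {z | z.1 ^ 2 + z.2 ^ 2 < 1} → ∀ (δ : ℕ → ℝ) (N : ℕ → ℕ)
        (p : ∀ n, ZMod (N n) → ℤ × ℤ) (S : ℕ → Finset Tri), Approx D δ N p S →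
        ∃ hL : ∀ n, Prob (unif (Heights (p n) (S n))), ∀ φ, TestOn D φ →
          ToGauss atTop (fun n => unif (Heights (p n) (S n))) hL (fun n => fld (S n) (δ n) φ)
            (κ * V D φ) ∧
          ∀ (ξ : ∀ n, ZMod (N n) → ℤ) (c m : ℕ → ℝ) (a : ℝ)
            (hB : ∀ n, Prob (unif (HeightsB (p n) (S n) (ξ n)))), (∀ n i, |ξ n i| = 1) →
            (∀ n, 0 < c n) → 0 < a → 0 < V D φ →
            ToGauss atTop (fun n => unif (HeightsB (p n) (S n) (ξ n))) hB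
              (fun n h => (fld (S n) (δ n) φ h - m n) / c n) (a ^ 2 * V D φ) →
            Tendsto c atTop (𝓝 (√κ / a))) ∧
      ∀ (n : ℕ) (p : ZMod n → ℤ × ℤ) (S : Finset Tri) (ξ : ZMod n → ℤ) (A : Set (ℤ × ℤ → ℤ)),
        Encl p S → (∀ i, |ξ i| = 1) →
        ((HeightsB p S ξ ∩ A).ncard : ℝ) / (HeightsB p S ξ).ncard ≤
          ((Heights p S ∩ Near A).ncard : ℝ) / (Heights p S).ncard

theorem main5 : Shape5 := by
  obtain ⟨Q, κ', hQ, hP, hS, hC, hκ, hpr, ⟨h1, h2, _, _, _, _, _, h4, h5⟩, h6, _⟩ :=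
    F.exists_all
  have h30 : (0 : ℝ) < √3 := by positivity
  have h5' : Tendsto (fun x : ℤ × ℤ =>
      (∫ h, ((h x - h 0 : ℤ) : ℝ) ^ 2 ∂((Q.map A.rc).map GFF.dbl)) /
      Real.log (GFF.len x)) cofinite (𝓝 (4 * κ' / √3 / Real.pi)) := by
    refine h5.congr fun x => ?_
    congr 1
    refine integral_congr_ae ?_
    filter_upwards [h1] with h hh
    rw [hh, sub_zero]
  have hJ : 0 < 4 * κ' / √3 → JG.JordanPart (4 * κ' / √3) := by
    intro hk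
    refine JG.jordanPart_of (fun D hD => F.jordan hQ hP hS hC ?_ hD)
    by_contra hn
    have h0 : κ' = 0 := le_antisymm (not_lt.1 hn) hκ
    rw [h0] at hk
    simp at hk
  refine ⟨(Q.map A.rc).map GFF.dbl, hpr,
    fun D hD hx => (JG3.lim_iff _ D).2 (h2 D (fun n => (JG3.co_iff _).1 (hD n)) hx),
    4 * κ' / √3, h4, h5', fun f hf h0 => ?_, fun hg => F.GM.pos_of_gm hP h4 h5 ?_,
    fun hk Φ D hD δ N p S hA => ?_, fun n p S ξ B hS' hξ => ?_⟩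
  · obtain ⟨a1, a2⟩ := h6 1 (fun _ => f) fun _ => ⟨hf.1, hf.2.1, h0⟩
    exact JG.toG_of_vec a1 a2
  · obtain ⟨c, hc, h⟩ := hg
    refine ⟨c, hc, fun D n hD hx => ?_⟩
    have h1 := h D n ((JG3.co_iff D).2 hD) hx
    unfold JG3.mean unif at h1
    rw [JG3.adj_eq] at h1
    exact h1
  · have hA' := approx_of hA
    have hD' : F.Dom.JordanDomain D := ⟨Φ, hD⟩
    obtain ⟨hL, h1⟩ := hJ hk D hD' δ N p S hA'
    have e : (fun n => JG.law (p n) (S n)) = fun n => unif (Heights (p n) (S n)) := by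
      funext n
      exact (JG3.law_eq _ _).symm
    have hL' : ∀ n, Prob (unif (Heights (p n) (S n))) := fun n => by
      have := hL n
      rw [← JG3.law_eq] at this
      exact this
    refine ⟨hL', fun φ hφ => ⟨JG3.toG_congr e (h1 φ hφ), ?_⟩⟩
    intro ξ c m a hB hξ hc ha hV hG
    have eB : (fun n => unif (HeightsB (p n) (S n) (ξ n))) =
        fun n => uniformOn {h | h ∈ F.Dom.Heights (p n) (S n) ∧ ∀ i, h (p n i) = ξ n i} := by
      funext n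
      rw [JG3.heightsB_eq]
      rfl
    have hB' : ∀ n, IsProbabilityMeasure
        (uniformOn {h | h ∈ F.Dom.Heights (p n) (S n) ∧ ∀ i, h (p n i) = ξ n i}) := fun n => by
      have := hB n
      rw [JG3.heightsB_eq] at this
      exact this
    exact F.Dom.Arcs.norm_of_conv (hJ hk) hk hD' hA' ξ (fun n i => (JG3.abs_one _).1 (hξ n i)) hφ
      hV ha hc (hL := hB') (JG3.toG_congr eB hG)
  · have h1 := JG.near_le p S ξ B (poly_of hS') (encl_of hS') hξ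
    have e : HeightsB p S ξ = JG.HeightsB p S ξ := JG3.heightsB_eq p S ξ
    rw [e, JG3.heights_eq]
    exact h1

end Vale.Agent.P153.JG5
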