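import Vale.Agent.P153.JG.Shape

set_option autoImplicit false

namespace Vale.Agent.P153.JG

open Vale.Agent.P153.F.Dom

theorem exu {α : Type} {S : Finset α} {s t : α} (h : s ≠ t) :
    (∃! x, x ∈ S ∧ (x = s ∨ x = t)) ↔ ¬ (s ∈ S ↔ t ∈ S) := by
  constructor
  · rintro ⟨x, ⟨h1, h2⟩, h3⟩ h4
    rcases h2 with rfl | rfl
    · exact h (h3 t ⟨h4.1 h1, Or.inr rfl⟩).symm
    · exact h (h3 s ⟨h4.2 h1, Or.inl rfl⟩)
  · intro h4
    by_cases hs : s ∈ S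
    · have ht : t ∉ S := fun ht => h4 ⟨fun _ => ht, fun _ => hs⟩
      refine ⟨s, ⟨hs, Or.inl rfl⟩, ?_⟩
      rintro y ⟨h5, rfl | rfl⟩
      · rfl
      · exact absurd h5 ht
    · have ht : t ∈ S := by
        by_contra ht
        exact h4 ⟨fun h => absurd h hs, fun h => absurd h ht⟩
      refine ⟨t, ⟨ht, Or.inr rfl⟩, ?_⟩
      rintro y ⟨h5, rfl | rfl⟩
      · exact absurd h5 hs
      · rfl

/-- The edges of `p` are exactly the edges of the lattice which belong to exactly one triangle of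
`S`. -/
def Encloses3 {n : ℕ} (p : ZMod n → ℤ × ℤ) (S : Finset ((ℤ × ℤ) × Bool)) : Prop :=
  ∀ a b, GFF.Adj a b → (IsEdge p a b ↔ ∃! t, t ∈ S ∧ a ∈ corners t ∧ b ∈ corners t)

theorem cor1 (v : ℤ × ℤ) (t : (ℤ × ℤ) × Bool) :
    (v ∈ corners t ∧ v + (1, 0) ∈ corners t) ↔ (t = (v, false) ∨ t = (v - (0, 1), true)) := by
  obtain ⟨⟨a, b⟩, c⟩ := t
  obtain ⟨x, y⟩ := v
  cases c <;> simp [corners] <;> omega

theorem cor2 (v : ℤ × ℤ) (t : (ℤ × ℤ) × Bool) :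
    (v ∈ corners t ∧ v + (0, 1) ∈ corners t) ↔ (t = (v, false) ∨ t = (v - (1, 0), true)) := by
  obtain ⟨⟨a, b⟩, c⟩ := t
  obtain ⟨x, y⟩ := v
  cases c <;> simp [corners] <;> omega

theorem cor3 (v : ℤ × ℤ) (t : (ℤ × ℤ) × Bool) :
    (v + (1, 0) ∈ corners t ∧ v + (0, 1) ∈ corners t) ↔ (t = (v, false) ∨ t = (v, true)) := by
  obtain ⟨⟨a, b⟩, c⟩ := t
  obtain ⟨x, y⟩ := v
  cases c <;> simp [corners] <;> omega

theorem encl_of {n : ℕ} {p : ZMod n → ℤ × ℤ} {S : Finset ((ℤ × ℤ) × Bool)}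
    (h : Encloses3 p S) : Encloses p S := by
  refine ⟨fun v => ?_, fun v => ?_, fun v => ?_⟩
  · have ha : GFF.Adj v (v + (1, 0)) := by simp [GFF.Adj]
    rw [h _ _ ha]
    simp only [cor1]
    exact exu (by simp)
  · have ha : GFF.Adj v (v + (0, 1)) := by simp [GFF.Adj]
    rw [h _ _ ha]
    simp only [cor2]
    exact exu (by simp)
  · have ha : GFF.Adj (v + (1, 0)) (v + (0, 1)) := by simp [GFF.Adj]
    rw [h _ _ ha]
    simp only [cor3]
    exact exu (by simp)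

end Vale.Agent.P153.JG
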