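import Vale.Agent.P153.JG.Shape
import Vale.Agent.P153.F.All

/-!
# P153-F: the final theorem
-/

namespace Vale.Agent.P153.JG

theorem main : JordanShape :=
  shape_of fun _ _ a b c d e _ hD => F.jordan a b c d e hD

end Vale.Agent.P153.JG
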