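import Vale.Agent.P153.JG.ShapeN
import Vale.Agent.P153.JG.Main2

/-!
# P153-F: the final theorem with the only possible normalisation
-/

namespace Vale.Agent.P153.JG3

theorem main3 : Shape3 := shape3_of JG.main2

end Vale.Agent.P153.JG3
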