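import Vale.Agent.P153.Bd5.B30

/-!
# P153-F: scaling limits of the heights with prescribed boundary values `±1`

For arbitrary boundary values `ξ ∈ {1, -1}` (in particular the two arcs of Q1), the distribution
functions of `h_δ(φ)` are asymptotically between those of the Gaussian limit shifted by
`± 2 ∫ |φ|`.
-/

set_option autoImplicit false

open MeasureTheory ProbabilityTheory Filter Topology

namespace Vale.Agent.P153.F.Dom.Arcs

open Vale.Agent.P145.PT (V TestOn)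

theorem abs_compact' {f : ℝ × ℝ → ℝ} (cf : HasCompactSupport f) :
    HasCompactSupport fun z => |f z| :=
  cf.comp_left (g := fun x : ℝ => |x|) abs_zero

/-- The total mass of the weights. -/
theorem sum_abs_wt' {δ R : ℝ} (hδ : 0 < δ) (hR : 0 ≤ R) {f : ℝ × ℝ → ℝ} (hc : Continuous f)
    (hs : HasCompactSupport f) (hf : ∀ z : ℝ × ℝ, (R < |z.1| ∨ R < |z.2|) → f z = 0) :
    ∑ v ∈ GFF.box δ R, |GFF.wt δ f v| ≤ ∫ z, |f z| := by
  have h1 := GFF.sum_wt hδ hR hc.abs (abs_compact' hs) (fun z hz => by rw [hf z hz, abs_zero])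
  rw [← h1]
  refine Finset.sum_le_sum fun v _ => ?_
  rw [GFF.wt_eq, GFF.wt_eq, abs_mul, abs_of_pos (by positivity : (0 : ℝ) < δ ^ 2)]
  refine mul_le_mul_of_nonneg_left ?_ (by positivity)
  refine (abs_integral_le_integral_abs).trans (le_of_eq ?_)
  congr 1
  funext u
  rw [abs_mul, abs_of_nonneg (GFF.ker_nonneg _)]

/-- The field is a linear function of the heights, of norm at most `∫ |φ|`. -/
theorem fld_ev {D : Set (ℝ × ℝ)} {δ : ℕ → ℝ} {N : ℕ → ℕ} {p : ∀ n, ZMod (N n) → ℤ × ℤ}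
    {S : ℕ → Finset ((ℤ × ℤ) × Bool)} (hA : JG.Approx D δ N p S) {φ : ℝ × ℝ → ℝ}
    (hφ : TestOn D φ) : ∀ᶠ n in atTop, ∃ (I : Finset (ℤ × ℤ)) (w : ℤ × ℤ → ℝ),
      (∑ v ∈ I, |w v| ≤ ∫ z, |φ z|) ∧ ∀ h : ℤ × ℤ → ℤ,
        fld (S n) (δ n) φ h = ∑ v ∈ I, (h v : ℝ) * w v := by
  obtain ⟨K, hK⟩ := fd930_csts hφ
  filter_upwards [hA.2.2.2 (tsupport φ) hφ.2.2 hK.supp.isCompact] with n h2
  have hδ := (hA.1 n).1
  refine ⟨GFF.box (δ n) K, GFF.wt (δ n) φ, sum_abs_wt' hδ hK.pos.le hK.cont hK.supp hK.zero,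
    fun h => ?_⟩
  have h5 : fld (S n) (δ n) φ h = GFF.smear h (δ n) φ := by
    unfold fld GFF.smear
    congr 1
    funext z
    by_cases hz : φ z = 0
    · rw [hz, mul_zero, mul_zero]
    · rw [if_pos (h2 (subset_tsupport _ hz))]
  rw [h5, GFF.smear_eq_sum hδ hK.pos.le hK.cont hK.supp hK.zero h]

theorem lin_meas (I : Finset (ℤ × ℤ)) (w : ℤ × ℤ → ℝ) :
    Measurable fun h : ℤ × ℤ → ℤ => ∑ v ∈ I, (h v : ℝ) * w v := by
  refine Finset.measurable_fun_sum _ fun v _ => Measurable.mul_const ?_ _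
  exact (Measurable.of_discrete (f := fun x : ℤ => (x : ℝ))).comp (measurable_pi_apply v)

theorem lin_close {I : Finset (ℤ × ℤ)} {w : ℤ × ℤ → ℝ} {M : ℝ} (hw : ∑ v ∈ I, |w v| ≤ M)
    {h h' : ℤ × ℤ → ℤ} (hh : ∀ v, |h v - h' v| ≤ 2) :
    |(∑ v ∈ I, (h v : ℝ) * w v) - ∑ v ∈ I, (h' v : ℝ) * w v| ≤ 2 * M := by
  rw [← Finset.sum_sub_distrib]
  refine (Finset.abs_sum_le_sum_abs _ _).trans ?_
  have h1 : ∑ v ∈ I, |(h v : ℝ) * w v - (h' v : ℝ) * w v| ≤ ∑ v ∈ I, 2 * |w v| := by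
    refine Finset.sum_le_sum fun v _ => ?_
    rw [← sub_mul, abs_mul]
    refine mul_le_mul_of_nonneg_right ?_ (abs_nonneg _)
    exact_mod_cast hh v
  refine h1.trans ?_
  rw [← Finset.mul_sum]
  linarith

/-- The distribution functions of the field with the boundary values `ξ`. -/
theorem arcs_lim {κ : ℝ} (hJ : JG.JordanPart κ) {D : Set (ℝ × ℝ)} (hD : JordanDomain D)
    {δ : ℕ → ℝ} {N : ℕ → ℕ} {p : ∀ n, ZMod (N n) → ℤ × ℤ} {S : ℕ → Finset ((ℤ × ℤ) × Bool)}
    (hA : JG.Approx D δ N p S) (ξ : ∀ n, ZMod (N n) → ℤ) (hξ : ∀ n i, ξ n i = 1 ∨ ξ n i = -1)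
    {φ : ℝ × ℝ → ℝ} (hφ : TestOn D φ) (t : ℝ) {ε : ℝ} (hε : 0 < ε) :
    ∀ᶠ n in atTop,
      (gaussianReal 0 (κ * V D φ).toNNReal).real (Set.Ioi (t + 2 * ∫ z, |φ z|)) - ε ≤
        (uniformOn {h | h ∈ Heights (p n) (S n) ∧ ∀ i, h (p n i) = ξ n i}).real
          {h | t ≤ fld (S n) (δ n) φ h} ∧
      (uniformOn {h | h ∈ Heights (p n) (S n) ∧ ∀ i, h (p n i) = ξ n i}).real
          {h | t ≤ fld (S n) (δ n) φ h} ≤
        (gaussianReal 0 (κ * V D φ).toNNReal).real (Set.Ici (t - 2 * ∫ z, |φ z|)) + ε := by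
  set M : ℝ := ∫ z, |φ z| with hM
  set γ := gaussianReal 0 (κ * V D φ).toNNReal with hγ
  obtain ⟨hL, hconv⟩ := hJ D hD δ N p S hA
  obtain ⟨-, hT⟩ := hconv φ hφ
  have hT3 := hT.tendsto
  have hup : ∀ᶠ n in atTop, ((JG.law (p n) (S n)).map (fld (S n) (δ n) φ)).real
      (Set.Ici (t - 2 * M)) < γ.real (Set.Ici (t - 2 * M)) + ε := by
    have h1 := ProbabilityMeasure.limsup_measure_closed_le_of_tendsto hT3
      (isClosed_Ici (a := t - 2 * M))
    have h2 : limsup (fun n => ((JG.law (p n) (S n)).map (fld (S n) (δ n) φ))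
        (Set.Ici (t - 2 * M))) atTop < γ (Set.Ici (t - 2 * M)) + ENNReal.ofReal ε := by
      refine lt_of_le_of_lt h1 ?_
      change (γ.map id) _ < _
      rw [Measure.map_id]
      exact ENNReal.lt_add_right (measure_ne_top _ _) (by simpa using hε)
    filter_upwards [eventually_lt_of_limsup_lt h2] with n hn
    have h3 : IsProbabilityMeasure ((JG.law (p n) (S n)).map (fld (S n) (δ n) φ)) :=
      Measure.isProbabilityMeasure_map (hT.forall_aemeasurable n)
    have h4 := (ENNReal.toReal_lt_toReal (measure_ne_top _ _) (by finiteness)).2 hn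
    rw [ENNReal.toReal_add (measure_ne_top _ _) ENNReal.ofReal_ne_top,
      ENNReal.toReal_ofReal hε.le] at h4
    exact h4
  have hlo : ∀ᶠ n in atTop, γ.real (Set.Ioi (t + 2 * M)) - ε <
      ((JG.law (p n) (S n)).map (fld (S n) (δ n) φ)).real (Set.Ioi (t + 2 * M)) := by
    have h1 := ProbabilityMeasure.le_liminf_measure_open_of_tendsto hT3
      (isOpen_Ioi (a := t + 2 * M))
    by_cases h0 : γ.real (Set.Ioi (t + 2 * M)) - ε < 0
    · exact Eventually.of_forall fun n => h0.trans_le measureReal_nonneg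
    · rw [not_lt] at h0
      have h2 : ENNReal.ofReal (γ.real (Set.Ioi (t + 2 * M)) - ε) <
          liminf (fun n => ((JG.law (p n) (S n)).map (fld (S n) (δ n) φ))
            (Set.Ioi (t + 2 * M))) atTop := by
        refine lt_of_lt_of_le ?_ h1
        change _ < (γ.map id) _
        rw [Measure.map_id, ENNReal.ofReal_lt_iff_lt_toReal h0 (measure_ne_top _ _)]
        change _ < γ.real _
        linarith
      filter_upwards [eventually_lt_of_lt_liminf h2] with n hn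
      have h3 : IsProbabilityMeasure ((JG.law (p n) (S n)).map (fld (S n) (δ n) φ)) :=
        Measure.isProbabilityMeasure_map (hT.forall_aemeasurable n)
      exact (ENNReal.ofReal_lt_iff_lt_toReal h0 (measure_ne_top _ _)).1 hn
  filter_upwards [fld_ev hA hφ, hup, hlo] with n hn h1 h2
  obtain ⟨I, w, hw, hfld⟩ := hn
  have hmeas : Measurable (fld (S n) (δ n) φ) := by
    have : fld (S n) (δ n) φ = fun h => ∑ v ∈ I, (h v : ℝ) * w v := funext hfld
    rw [this]
    exact lin_meas I w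
  obtain ⟨Q, q1, q2, q3⟩ := coupling (p n) (S n) (hA.1 n).2.1 (hA.1 n).2.2 (ξ n) (hξ n)
  have hQ : IsProbabilityMeasure Q := by
    have : IsProbabilityMeasure (Q.map Prod.snd) := by
      rw [q2]
      exact hL n
    exact (Measure.isProbabilityMeasure_map_iff measurable_snd.aemeasurable).1 this
  rw [measureReal_def, Measure.map_apply hmeas measurableSet_Ici] at h1
  rw [measureReal_def (μ := (JG.law (p n) (S n)).map (fld (S n) (δ n) φ)),
    Measure.map_apply hmeas measurableSet_Ioi] at h2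
  unfold JG.law at h1 h2
  rw [← q2, Measure.map_apply measurable_snd (hmeas measurableSet_Ici)] at h1
  rw [← q2, Measure.map_apply measurable_snd (hmeas measurableSet_Ioi)] at h2
  have e : (uniformOn {h | h ∈ Heights (p n) (S n) ∧ ∀ i, h (p n i) = ξ n i}).real
      {h | t ≤ fld (S n) (δ n) φ h} = (Q (Prod.fst ⁻¹' {h | t ≤ fld (S n) (δ n) φ h})).toReal := by
    rw [measureReal_def, ← q1, Measure.map_apply measurable_fst (measurableSet_le measurable_const hmeas)]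
  rw [e]
  constructor
  · refine h2.le.trans (ENNReal.toReal_mono (measure_ne_top _ _) (measure_mono_ae ?_))
    filter_upwards [q3] with q hq hq'
    have h5 := lin_close hw hq
    rw [← hfld, ← hfld, abs_le] at h5
    have h6 : t + 2 * M < fld (S n) (δ n) φ q.2 := hq'
    change t ≤ fld (S n) (δ n) φ q.1
    linarith [h5.1]
  · refine (ENNReal.toReal_mono (measure_ne_top _ _) (measure_mono_ae ?_)).trans h1.le
    filter_upwards [q3] with q hq hq'
    have h5 := lin_close hw hq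
    rw [← hfld, ← hfld, abs_le] at h5
    have h6 : t ≤ fld (S n) (δ n) φ q.1 := hq'
    change t - 2 * M ≤ fld (S n) (δ n) φ q.2
    linarith [h5.2]

end Vale.Agent.P153.F.Dom.Arcs

/-!
# P153-F: the normalisation for prescribed boundary values `±1`

If, for boundary values `ξ ∈ {1, -1}` (in particular the two arcs of Q1), some normalisation
`(h_δ(φ) - m_δ) / c_δ` converges in law to `N(0, a² V)`, `a > 0`, then `c_δ → √κ / a`.
-/

set_option autoImplicit false

open MeasureTheory ProbabilityTheory Filter Topology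

namespace Vale.Agent.P153.F.Dom.Arcs

open Vale.Agent.P145.PT (V TestOn)


/-- Convergence of types with a bounded perturbation. -/
theorem types {Φ : ℝ → ℝ} (hΦ : StrictAnti Φ) {G : ℕ → ℝ → ℝ} (hG : ∀ n, Antitone (G n))
    {σ s K : ℝ} (hσ : 0 < σ) (hs : 0 < s) (hK : 0 ≤ K) {c m : ℕ → ℝ}
    (h1 : ∀ t ε, 0 < ε → ∀ᶠ n in atTop, Φ ((t + K) / σ) - ε ≤ G n t ∧
      G n t ≤ Φ ((t - K) / σ) + ε)
    (h2 : ∀ u, Tendsto (fun n => G n (m n + c n * (s * u))) atTop (𝓝 (Φ u))) :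
    Tendsto c atTop (𝓝 (σ / s)) := by
  have key : ∀ u : ℝ, ∀ᶠ n in atTop, σ * (u - 1) - K ≤ m n + c n * (s * u) ∧
      m n + c n * (s * u) ≤ σ * (u + 1) + K := by
    intro u
    have a1 : Φ u < Φ (u - 1) := hΦ (by linarith)
    have a2 : Φ (u + 1) < Φ u := hΦ (by linarith)
    have b1 := h1 (σ * (u - 1) - K) ((Φ (u - 1) - Φ u) / 2) (by linarith)
    have b2 := h1 (σ * (u + 1) + K) ((Φ u - Φ (u + 1)) / 2) (by linarith)
    have c1 := (tendsto_order.1 (h2 u)).2 (Φ u + (Φ (u - 1) - Φ u) / 2) (by linarith)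
    have c2 := (tendsto_order.1 (h2 u)).1 (Φ u - (Φ u - Φ (u + 1)) / 2) (by linarith)
    have e1 : (σ * (u - 1) - K + K) / σ = u - 1 := by field_simp; ring
    have e2 : (σ * (u + 1) + K - K) / σ = u + 1 := by field_simp; ring
    filter_upwards [b1, b2, c1, c2] with n hb1 hb2 hc1 hc2
    rw [e1] at hb1
    rw [e2] at hb2
    constructor
    · by_contra hcon
      have := hG n (not_le.1 hcon).le
      linarith [hb1.1]
    · by_contra hcon
      have := hG n (not_le.1 hcon).le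
      linarith [hb2.2]
  have key2 : ∀ u : ℝ, 0 < u → ∀ᶠ n in atTop, |c n * s - σ| ≤ (σ + K) / u := by
    intro u hu
    filter_upwards [key u, key (-u)] with n h3 h4
    have e : |c n * s - σ| * u = |(c n * s - σ) * u| := by rw [abs_mul, abs_of_pos hu]
    rw [le_div_iff₀ hu, e, abs_le]
    constructor
    · nlinarith [h3.1, h4.2]
    · nlinarith [h3.2, h4.1]
  have key3 : Tendsto (fun n => c n * s) atTop (𝓝 σ) := by
    rw [Metric.tendsto_atTop']
    intro ε hε
    have hu : 0 < 2 * (σ + K) / ε := by positivity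
    obtain ⟨N, hN⟩ := eventually_atTop.1 (key2 _ hu)
    refine ⟨N, fun n hn => ?_⟩
    rw [Real.dist_eq]
    refine lt_of_le_of_lt (hN n (le_of_lt hn)) ?_
    rw [div_div_eq_mul_div, div_lt_iff₀ (by positivity)]
    nlinarith
  have := key3.div_const s
  refine this.congr fun n => ?_
  field_simp

/-- The Gaussian tail. -/
noncomputable def tail (x : ℝ) : ℝ := (gaussianReal 0 1).real (Set.Ici x)

theorem tail_anti : StrictAnti tail := by
  intro x y hxy
  have h1 : Set.Ici x = Set.Ico x y ∪ Set.Ici y := (Set.Ico_union_Ici_eq_Ici hxy.le).symm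
  have h2 : Disjoint (Set.Ico x y) (Set.Ici y) := by
    rw [Set.disjoint_left]
    intro z hz hz'
    exact absurd hz.2 (not_lt.2 hz')
  have h3 : 0 < (gaussianReal 0 1).real (Set.Ico x y) := by
    rw [measureReal_def, ENNReal.toReal_pos_iff]
    refine ⟨?_, measure_lt_top _ _⟩
    rw [pos_iff_ne_zero]
    intro h0
    have := gaussianReal_absolutelyContinuous' 0 (one_ne_zero) h0
    rw [Real.volume_Ico, ENNReal.ofReal_eq_zero] at this
    linarith
  unfold tail
  rw [h1, measureReal_union h2 measurableSet_Ici]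
  linarith

theorem gauss_Ici {v : ℝ} (hv : 0 < v) (t : ℝ) :
    (gaussianReal 0 v.toNNReal).real (Set.Ici t) = tail (t / √v) := by
  have h1 : (gaussianReal 0 1).map (fun x => √v * x) = gaussianReal 0 v.toNNReal := by
    rw [gaussianReal_map_const_mul]
    congr 1
    · simp
    · apply NNReal.eq
      simp [Real.sq_sqrt hv.le, Real.coe_toNNReal _ hv.le]
  have hs : 0 < √v := Real.sqrt_pos.2 hv
  unfold tail
  rw [← h1, measureReal_def, Measure.map_apply (by fun_prop) measurableSet_Ici, measureReal_def]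
  congr 2
  ext x
  simp only [Set.mem_preimage, Set.mem_Ici]
  rw [div_le_iff₀ hs, mul_comm]

theorem gauss_Ioi {v : ℝ} (hv : 0 < v) (t : ℝ) :
    (gaussianReal 0 v.toNNReal).real (Set.Ioi t) = tail (t / √v) := by
  rw [← gauss_Ici hv]
  have : NullSingletonClass (gaussianReal 0 v.toNNReal) := nullSingletonClass_gaussianReal (by
    simpa using hv)
  exact measureReal_congr Ioi_ae_eq_Ici


/-- Convergence in law to a Gaussian variable: the tails. -/
theorem toG_tail {μ : ℕ → Measure (ℤ × ℤ → ℤ)} {hμ : ∀ i, IsProbabilityMeasure (μ i)}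
    {X : ℕ → (ℤ × ℤ → ℤ) → ℝ} {v : ℝ} (hv : 0 < v) (h : JG.ToG atTop μ hμ X v) (t : ℝ) :
    Tendsto (fun n => (μ n).real {h | t ≤ X n h}) atTop (𝓝 (tail (t / √v))) := by
  obtain ⟨-, h1⟩ := h
  have : NullSingletonClass (gaussianReal 0 v.toNNReal) := nullSingletonClass_gaussianReal (by
    simpa using hv)
  have h2 := ProbabilityMeasure.tendsto_measure_of_null_frontier_of_tendsto' h1.tendsto
    (E := Set.Ici t) (by
      change ((gaussianReal 0 v.toNNReal).map id) _ = 0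
      rw [Measure.map_id, frontier_Ici]
      exact measure_singleton t)
  have hf : (gaussianReal 0 v.toNNReal).map id (Set.Ici t) ≠ ⊤ := by
    rw [Measure.map_id]
    exact measure_ne_top _ _
  have h3 := (ENNReal.tendsto_toReal hf).comp h2
  have e : ((gaussianReal 0 v.toNNReal).map id (Set.Ici t)).toReal = tail (t / √v) := by
    rw [Measure.map_id, ← gauss_Ici hv]
    rfl
  change Tendsto _ _ (𝓝 ((gaussianReal 0 v.toNNReal).map id (Set.Ici t)).toReal) at h3
  rw [e] at h3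
  refine h3.congr fun n => ?_
  change (((μ n).map (X n)) (Set.Ici t)).toReal = _
  rw [Measure.map_apply_of_aemeasurable (h1.forall_aemeasurable n) measurableSet_Ici]
  rfl

/-- The only possible normalisation: if `(h_δ(φ) - m_δ) / c_δ → N(0, a² V(φ))` in law for the
boundary values `ξ`, then `c_δ → √κ / a`. -/
theorem norm_of_conv {κ : ℝ} (hJ : JG.JordanPart κ) (hκ : 0 < κ) {D : Set (ℝ × ℝ)}
    (hD : JordanDomain D) {δ : ℕ → ℝ} {N : ℕ → ℕ} {p : ∀ n, ZMod (N n) → ℤ × ℤ}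
    {S : ℕ → Finset ((ℤ × ℤ) × Bool)} (hA : JG.Approx D δ N p S) (ξ : ∀ n, ZMod (N n) → ℤ)
    (hξ : ∀ n i, ξ n i = 1 ∨ ξ n i = -1) {φ : ℝ × ℝ → ℝ} (hφ : TestOn D φ) (hV : 0 < V D φ)
    {a : ℝ} (ha : 0 < a) {c m : ℕ → ℝ} (hc : ∀ n, 0 < c n)
    {hL : ∀ n, IsProbabilityMeasure
      (uniformOn {h | h ∈ Heights (p n) (S n) ∧ ∀ i, h (p n i) = ξ n i})}
    (h : JG.ToG atTop (fun n => uniformOn {h | h ∈ Heights (p n) (S n) ∧ ∀ i, h (p n i) = ξ n i})
      hL (fun n h => (fld (S n) (δ n) φ h - m n) / c n) (a ^ 2 * V D φ)) :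
    Tendsto c atTop (𝓝 (√κ / a)) := by
  have hv1 : 0 < κ * V D φ := mul_pos hκ hV
  have hv2 : 0 < a ^ 2 * V D φ := by positivity
  have hs1 : 0 < √(κ * V D φ) := Real.sqrt_pos.2 hv1
  have hs2 : 0 < √(a ^ 2 * V D φ) := Real.sqrt_pos.2 hv2
  have e : √(κ * V D φ) / √(a ^ 2 * V D φ) = √κ / a := by
    have := Real.sqrt_pos.2 hV
    rw [Real.sqrt_mul hκ.le, Real.sqrt_mul (sq_nonneg a), Real.sqrt_sq ha.le]
    field_simp
  rw [← e]
  refine types tail_anti (G := fun n t =>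
    (uniformOn {h | h ∈ Heights (p n) (S n) ∧ ∀ i, h (p n i) = ξ n i}).real
      {h | t ≤ fld (S n) (δ n) φ h}) ?_ hs1 hs2 (K := 2 * ∫ z, |φ z|)
    (by positivity) (m := m) ?_ ?_
  · intro n t t' ht
    have := hL n
    exact measureReal_mono fun h hh => le_trans ht hh
  · intro t ε hε
    filter_upwards [arcs_lim hJ hD hA ξ hξ hφ t hε] with n hn
    rw [gauss_Ioi hv1, gauss_Ici hv1] at hn
    exact hn
  · intro u
    have h1 := toG_tail hv2 h (√(a ^ 2 * V D φ) * u)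
    have e2 : √(a ^ 2 * V D φ) * u / √(a ^ 2 * V D φ) = u := by field_simp
    rw [e2] at h1
    refine h1.congr fun n => ?_
    congr 1
    ext x
    change √(a ^ 2 * V D φ) * u ≤ (fld (S n) (δ n) φ x - m n) / c n ↔
      m n + c n * (√(a ^ 2 * V D φ) * u) ≤ fld (S n) (δ n) φ x
    rw [le_div_iff₀ (hc n)]
    constructor <;> intro h <;> linarith

end Vale.Agent.P153.F.Dom.Arcs

/-!
# P153-F: the final theorem, with the only possible normalisation for prescribed boundary values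
-/

set_option autoImplicit false

open MeasureTheory ProbabilityTheory Filter Topology

namespace Vale.Agent.P153.JG3

/-- Laws of random heights. -/
abbrev Law := Measure (ℤ × ℤ → ℤ)

/-- `μ` has mass one. -/
abbrev Prob (μ : Law) : Prop := IsProbabilityMeasure μ

/-- The distance to the origin of the point `x.1 (1, 0) + x.2 (1/2, √3/2)` of the plane. -/
noncomputable def len (x : ℤ × ℤ) : ℝ := √((x.1 : ℝ) ^ 2 + x.1 * x.2 + (x.2 : ℝ) ^ 2)

/-- The uniform distribution on a finite set. -/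
noncomputable def unif (s : Set (ℤ × ℤ → ℤ)) : Law := uniformOn s

/-- Expectation. -/
noncomputable def mean (μ : Law) (F : (ℤ × ℤ → ℤ) → ℝ) : ℝ := ∫ h, F h ∂μ

/-- Neighbours in the triangular lattice. -/
def Adj (x y : ℤ × ℤ) : Prop := len (y - x) = 1

/-- The complement of the finite set `D` is connected. -/
def CoConnected (D : Finset (ℤ × ℤ)) : Prop :=
  ∀ x y, x ∉ D → y ∉ D → Relation.ReflTransGen (fun u v => Adj u v ∧ v ∉ D) x y

/-- Odd heights on `D` with steps `0, ±2` along the edges and with value `±1` at the boundary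
vertices (those with a neighbour outside `D`); the value off `D` is a dummy. -/
def HeightsOn (D : Finset (ℤ × ℤ)) : Set (ℤ × ℤ → ℤ) :=
  {h | (∀ x, Odd (h x)) ∧ (∀ x ∈ D, ∀ y ∈ D, Adj x y → |h x - h y| ≤ 2) ∧
    (∀ x ∈ D, (∃ y, Adj x y ∧ y ∉ D) → |h x| = 1) ∧ ∀ x, x ∉ D → h x = -1}

/-- The functions with the same differences as `a` on `B`. -/
def Pat (B : Finset (ℤ × ℤ)) (a : ℤ × ℤ → ℤ) : Set (ℤ × ℤ → ℤ) :=
  {h | ∀ x ∈ B, ∀ y ∈ B, h x - h y = a x - a y}

/-- `P` is the local limit, modulo constants, of the uniform measures on `HeightsOn (D n)`. -/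
def IsLocalLimit (P : Law) (D : ℕ → Finset (ℤ × ℤ)) : Prop :=
  ∀ (B : Finset (ℤ × ℤ)) (a : ℤ × ℤ → ℤ),
    Tendsto (fun n => ((HeightsOn (D n) ∩ Pat B a).ncard : ℝ) / (HeightsOn (D n)).ncard) atTop
      (𝓝 (P.real (Pat B a)))

/-- The hat function of the origin (affine on the triangles), in lattice coordinates. -/
noncomputable def hat (s t : ℝ) : ℝ := max 0 (1 - max |s| (max |t| |s + t|))

/-- The extension of `h` to the plane, affine on each triangle of the lattice, at the point `z`. -/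
noncomputable def interp (h : ℤ × ℤ → ℤ) (z : ℝ × ℝ) : ℝ :=
  ∑ᶠ v : ℤ × ℤ, (h v : ℝ) * hat (z.1 - z.2 / √3 - v.1) (2 * z.2 / √3 - v.2)

/-- Smooth functions with compact support contained in `D`. -/
def TestOn (D : Set (ℝ × ℝ)) (φ : ℝ × ℝ → ℝ) : Prop :=
  ContDiff ℝ ((⊤ : ℕ∞) : WithTop ℕ∞) φ ∧ HasCompactSupport φ ∧ tsupport φ ⊆ D

/-- Convergence in law of the random variables `X i` (under `μ i`) to the centred Gaussian law
with variance `v`. -/
def ToGauss {ι : Type} (l : Filter ι) (μ : ι → Law) (_ : ∀ i, Prob (μ i))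
    (X : ι → (ℤ × ℤ → ℤ) → ℝ) (v : ℝ) : Prop :=
  0 ≤ v ∧ TendstoInDistribution X l id μ (gaussianReal 0 v.toNNReal)

/-! ### Jordan domains -/

/-- A bounded Jordan domain: the image of the open unit disc under a homeomorphism of the plane
(by the theorem of Schoenflies these are exactly the interiors of Jordan curves). -/
def JordanDomain (D : Set (ℝ × ℝ)) : Prop := 
  ∃ Φ : (ℝ × ℝ) ≃ₜ (ℝ × ℝ), D = Φ '' {z | z.1 ^ 2 + z.2 ^ 2 < 1}

/-- `∫ |∇ψ|²`. -/
noncomputable def energy (ψ : ℝ × ℝ → ℝ) : ℝ :=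
  ∫ z, (fderiv ℝ ψ z (1, 0) ^ 2 + fderiv ℝ ψ z (0, 1) ^ 2)

/-- `⟨φ, (-Δ_D)⁻¹ φ⟩ = sup_ψ (2 ∫ φ ψ - ∫ |∇ψ|²)`, `ψ` smooth with compact support in `D`. -/
noncomputable def V (D : Set (ℝ × ℝ)) (φ : ℝ × ℝ → ℝ) : ℝ :=
  ⨆ ψ : {ψ // TestOn D ψ}, (2 * ∫ z, φ z * ψ.1 z) - energy ψ.1

/-- The triangles of the lattice: `(v, false)` has the corners `v, v + (1, 0), v + (0, 1)`;
`(v, true)` has the corners `v + (1, 0), v + (0, 1), v + (1, 1)`. -/
abbrev Tri := (ℤ × ℤ) × Bool

/-- A simple closed lattice polygon `p 0, p 1, …, p (n - 1), p 0`. -/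
def IsPolygon {n : ℕ} (p : ZMod n → ℤ × ℤ) : Prop :=
  2 < n ∧ Function.Injective p ∧ ∀ i, Adj (p i) (p (i + 1))

/-- The edge between the lattice points `a` and `b` is an edge of the polygon `p`. -/
def IsEdge {n : ℕ} (p : ZMod n → ℤ × ℤ) (a b : ℤ × ℤ) : Prop :=
  ∃ i, (p i = a ∧ p (i + 1) = b) ∨ (p i = b ∧ p (i + 1) = a)

/-- The edge `ab` is in `p` if and only if exactly one of its two sides `s`, `t` is in `S`. -/
def Side {n : ℕ} (p : ZMod n → ℤ × ℤ) (S : Finset Tri) (a b : ℤ × ℤ) (s t : Tri) : Prop :=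
  IsEdge p a b ↔ ¬ (s ∈ S ↔ t ∈ S)

/-- The finite set `S` of triangles is the set of the triangles enclosed by the polygon `p`: the
edges of `p` are exactly the edges of the lattice with exactly one of their two sides in `S`. -/
def Encloses {n : ℕ} (p : ZMod n → ℤ × ℤ) (S : Finset Tri) : Prop :=
  ∀ v : ℤ × ℤ, Side p S v (v + (1, 0)) (v, false) (v - (0, 1), true) ∧
    Side p S v (v + (0, 1)) (v, false) (v - (1, 0), true) ∧
    Side p S (v + (1, 0)) (v + (0, 1)) (v, false) (v, true)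

/-- The corners of a triangle. -/
def corners (t : Tri) : Finset (ℤ × ℤ) :=
  if t.2 then {t.1 + (1, 0), t.1 + (0, 1), t.1 + (1, 1)}
  else {t.1, t.1 + (1, 0), t.1 + (0, 1)}

/-- The vertices of the domain: the corners of the enclosed triangles. -/
def verts (S : Finset Tri) : Finset (ℤ × ℤ) := S.biUnion corners

/-- The heights of the domain enclosed by `p`: odd, with steps `0` or `±2` between adjacent
vertices, with values `±1` on the polygon (and the dummy value `0` off the domain). -/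
def Heights {n : ℕ} (p : ZMod n → ℤ × ℤ) (S : Finset Tri) : Set (ℤ × ℤ → ℤ) :=
  {h | (∀ v ∈ verts S, Odd (h v)) ∧ (∀ i, |h (p i)| = 1) ∧
    (∀ v ∈ verts S, ∀ w ∈ verts S, Adj v w → |h v - h w| ≤ 2) ∧
    ∀ v, v ∉ verts S → h v = 0}

/-- The heights with the values `ξ` on the polygon. -/
def HeightsB {n : ℕ} (p : ZMod n → ℤ × ℤ) (S : Finset Tri) (ξ : ZMod n → ℤ) : Set (ℤ × ℤ → ℤ) :=
  {h ∈ Heights p S | ∀ i, h (p i) = ξ i}

/-- The functions which differ by at most `2` from an element of `A`. -/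
def Near (A : Set (ℤ × ℤ → ℤ)) : Set (ℤ × ℤ → ℤ) := {g | ∃ h ∈ A, ∀ v, |h v - g v| ≤ 2}

/-- The uniform distribution on the heights. -/
noncomputable def law {n : ℕ} (p : ZMod n → ℤ × ℤ) (S : Finset Tri) : Law := unif (Heights p S)

/-- The point of the plane. -/
noncomputable def pt (v : ℤ × ℤ) : ℝ × ℝ := (v.1 + v.2 / 2, √3 / 2 * v.2)

/-- The closed domain `D_δ`: the union of the enclosed triangles of the lattice of mesh `δ`. -/
noncomputable def region (δ : ℝ) (S : Finset Tri) : Set (ℝ × ℝ) :=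
  {z | ∃ t ∈ S, z ∈ convexHull ℝ ((fun v => δ • pt v) '' (corners t : Set (ℤ × ℤ)))}

open Classical in
/-- `h_δ(φ) = ∫ h_δ(z) φ(z) dz`, where `h_δ` is affine on each triangle of `D_δ` and is extended by
`0` outside `D_δ`. -/
noncomputable def fld (S : Finset Tri) (δ : ℝ) (φ : ℝ × ℝ → ℝ) (h : ℤ × ℤ → ℤ) : ℝ :=
  ∫ z : ℝ × ℝ, (if z ∈ region δ S then interp h (z.1 / δ, z.2 / δ) else 0) * φ z

/-- Lattice polygons `p n` of mesh `δ n → 0` approximating the domain `D`: the vertices of the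
polygons are eventually within any given distance of `D`, and every compact subset of `D` is
eventually enclosed. (Both follow from the uniform convergence of the boundary curves.) -/
def Approx (D : Set (ℝ × ℝ)) (δ : ℕ → ℝ) (N : ℕ → ℕ) (p : ∀ n, ZMod (N n) → ℤ × ℤ)
    (S : ℕ → Finset Tri) : Prop :=
  (∀ n, 0 < δ n ∧ IsPolygon (p n) ∧ Encloses (p n) (S n)) ∧ Tendsto δ atTop (𝓝 0) ∧
  (∀ ε > 0, ∀ᶠ n in atTop, ∀ i, ∃ z ∈ D, dist (δ n • pt (p n i)) z < ε) ∧
  ∀ K ⊆ D, IsCompact K → ∀ᶠ n in atTop, K ⊆ region (δ n) (S n)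

/-! ### Transfer -/

theorem adj_iff (x y : ℤ × ℤ) : Adj x y ↔ GFF.Adj x y := by
  have h1 : Adj x y ↔ (y.1 - x.1) ^ 2 + (y.1 - x.1) * (y.2 - x.2) + (y.2 - x.2) ^ 2 = 1 := by
    unfold Adj len
    rw [Real.sqrt_eq_one]
    constructor
    · intro h
      have h' : (((y - x).1 ^ 2 + (y - x).1 * (y - x).2 + (y - x).2 ^ 2 : ℤ) : ℝ) = ((1 : ℤ) : ℝ) := by
        push_cast
        exact h
      exact_mod_cast h'
    · intro h
      have h' : (((y - x).1 ^ 2 + (y - x).1 * (y - x).2 + (y - x).2 ^ 2 : ℤ) : ℝ) = ((1 : ℤ) : ℝ) := by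
        rw [show (y - x).1 = y.1 - x.1 from rfl, show (y - x).2 = y.2 - x.2 from rfl, h]
      push_cast at h'
      exact h'
  rw [h1]
  unfold GFF.Adj
  generalize y.1 - x.1 = a
  generalize y.2 - x.2 = b
  constructor
  · intro h
    have ha : a ^ 2 < 2 := by nlinarith [sq_nonneg (a + 2 * b)]
    have hb : b ^ 2 < 2 := by nlinarith [sq_nonneg (b + 2 * a)]
    have ha1 : a < 2 := by nlinarith
    have ha2 : -2 < a := by nlinarith
    have hb1 : b < 2 := by nlinarith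
    have hb2 : -2 < b := by nlinarith
    interval_cases a <;> interval_cases b <;> simp_all
  · intro h
    simp only [Set.mem_insert_iff, Set.mem_singleton_iff, Prod.mk.injEq] at h
    rcases h with ⟨rfl, rfl⟩ | ⟨rfl, rfl⟩ | ⟨rfl, rfl⟩ | ⟨rfl, rfl⟩ | ⟨rfl, rfl⟩ | ⟨rfl, rfl⟩ <;>
      norm_num

theorem adj_eq : Adj = GFF.Adj := by
  funext x y
  exact propext (adj_iff x y)

theorem co_iff (D : Finset (ℤ × ℤ)) : CoConnected D ↔ GFF.CoConn D := by
  unfold CoConnected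
  rw [adj_eq]
  exact Iff.rfl

theorem abs_one (a : ℤ) : |a| = 1 ↔ a = 1 ∨ a = -1 := abs_eq zero_le_one

theorem on_eq (D : Finset (ℤ × ℤ)) : HeightsOn D = GFF.Odd2 D := by
  unfold HeightsOn
  rw [adj_eq]
  simp only [abs_one]
  rfl

theorem lim_iff (P : Law) (D : ℕ → Finset (ℤ × ℤ)) : IsLocalLimit P D ↔ GFF.OddLim P D := by
  unfold IsLocalLimit
  simp only [on_eq]
  exact Iff.rfl

theorem poly_iff {n : ℕ} (p : ZMod n → ℤ × ℤ) : IsPolygon p ↔ F.Dom.IsPolygon p := by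
  unfold IsPolygon
  rw [adj_eq]
  exact Iff.rfl

theorem encl_iff {n : ℕ} (p : ZMod n → ℤ × ℤ) (S : Finset Tri) :
    Encloses p S ↔ F.Dom.Encloses p S := by
  constructor
  · intro h
    exact ⟨fun v => (h v).1, fun v => (h v).2.1, fun v => (h v).2.2⟩
  · intro h v
    exact ⟨h.1 v, h.2.1 v, h.2.2 v⟩

theorem heights_eq {n : ℕ} (p : ZMod n → ℤ × ℤ) (S : Finset Tri) :
    Heights p S = F.Dom.Heights p S := by
  unfold Heights
  rw [adj_eq]
  ext h
  constructor
  · rintro ⟨h1, h2, h3, h4⟩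
    exact ⟨h1, fun i => (abs_one _).1 (h2 i), fun v hv w hw a =>
      (F.Dom.Arcs.par (h1 v hv) (h1 w hw)).2 (h3 v hv w hw a), h4⟩
  · rintro ⟨h1, h2, h3, h4⟩
    exact ⟨h1, fun i => (abs_one _).2 (h2 i), fun v hv w hw a =>
      (F.Dom.Arcs.par (h1 v hv) (h1 w hw)).1 (h3 v hv w hw a), h4⟩

theorem heightsB_eq {n : ℕ} (p : ZMod n → ℤ × ℤ) (S : Finset Tri) (ξ : ZMod n → ℤ) :
    HeightsB p S ξ = {h | h ∈ F.Dom.Heights p S ∧ ∀ i, h (p i) = ξ i} := by
  unfold HeightsB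
  rw [heights_eq]

theorem law_eq {n : ℕ} (p : ZMod n → ℤ × ℤ) (S : Finset Tri) : law p S = JG.law p S := by
  unfold law unif
  rw [heights_eq]
  rfl

theorem approx_iff {D : Set (ℝ × ℝ)} {δ : ℕ → ℝ} {N : ℕ → ℕ} {p : ∀ n, ZMod (N n) → ℤ × ℤ}
    {S : ℕ → Finset Tri} (h : Approx D δ N p S) : JG.Approx D δ N p S :=
  ⟨fun n => ⟨(h.1 n).1, (poly_iff _).1 (h.1 n).2.1, (encl_iff _ _).1 (h.1 n).2.2⟩, h.2⟩

theorem toG_congr {μ ν : ℕ → Law} {hμ : ∀ n, Prob (μ n)} {hν : ∀ n, Prob (ν n)}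
    (e : μ = ν) {X : ℕ → (ℤ × ℤ → ℤ) → ℝ} {v : ℝ} (h : JG.ToG atTop μ hμ X v) :
    JG.ToG atTop ν hν X v := by
  subst e
  exact h

/-- The theorem. -/
def Shape3 : Prop := ∃ P : Law, ∃ _ : Prob P,
    (∀ᵐ h ∂P, h 0 = 0) ∧
    (∀ D : ℕ → Finset (ℤ × ℤ), (∀ n, CoConnected (D n)) → (∀ x, ∀ᶠ n in atTop, x ∈ D n) →
      IsLocalLimit P D) ∧
    ∃ κ : ℝ, 0 ≤ κ ∧
      Tendsto (fun x => (mean P fun h => (h x : ℝ) ^ 2) / Real.log (len x)) cofinite
        (𝓝 (κ / Real.pi)) ∧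
      ((∃ c > 0, ∀ (D : Finset (ℤ × ℤ)) (n : ℕ), CoConnected D → (∀ x, len x ≤ n → x ∈ D) →
        c * Real.log n ≤ mean (unif {h | (∀ x, x ∉ D → h x = 0) ∧
          ∀ x y, Adj x y → |h x - h y| ≤ 1}) fun h => (h 0 : ℝ) ^ 2) → 0 < κ) ∧
      (0 < κ → ∀ D : Set (ℝ × ℝ), JordanDomain D → ∀ (δ : ℕ → ℝ) (N : ℕ → ℕ)
        (p : ∀ n, ZMod (N n) → ℤ × ℤ) (S : ℕ → Finset Tri), Approx D δ N p S →
        ∃ hL : ∀ n, Prob (law (p n) (S n)), ∀ φ, TestOn D φ →
          ToGauss atTop (fun n => law (p n) (S n)) hL (fun n => fld (S n) (δ n) φ)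
            (κ * V D φ) ∧
          ∀ (ξ : ∀ n, ZMod (N n) → ℤ) (c m : ℕ → ℝ) (a : ℝ)
            (hB : ∀ n, Prob (unif (HeightsB (p n) (S n) (ξ n)))), (∀ n i, |ξ n i| = 1) →
            (∀ n, 0 < c n) → 0 < a → 0 < V D φ →
            ToGauss atTop (fun n => unif (HeightsB (p n) (S n) (ξ n))) hB
              (fun n h => (fld (S n) (δ n) φ h - m n) / c n) (a ^ 2 * V D φ) →
            Tendsto c atTop (𝓝 (√κ / a))) ∧
      ∀ (n : ℕ) (p : ZMod n → ℤ × ℤ) (S : Finset Tri) (ξ : ZMod n → ℤ) (A : Set (ℤ × ℤ → ℤ)),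
        IsPolygon p → Encloses p S → (∀ i, |ξ i| = 1) →
        ((HeightsB p S ξ ∩ A).ncard : ℝ) / (HeightsB p S ξ).ncard ≤
          ((Heights p S ∩ Near A).ncard : ℝ) / (Heights p S).ncard

theorem shape3_of (h : JG.JordanShape2) : Shape3 := by
  obtain ⟨P, hP, h0, hloc, κ, hκ, hlog, hgm, hJ, hnear⟩ := h
  refine ⟨P, hP, h0, fun D hD hx => (lim_iff P D).2 (hloc D (fun n => (co_iff _).1 (hD n)) hx),
    κ, hκ, hlog, fun hg => hgm ?_, fun hk D hD δ N p S hA => ?_, fun n p S ξ A hp hS hξ => ?_⟩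
  · obtain ⟨c, hc, h⟩ := hg
    refine ⟨c, hc, fun D n hD hx => ?_⟩
    have h1 := h D n ((co_iff D).2 hD) hx
    unfold mean unif at h1
    rw [adj_eq] at h1
    exact h1
  · have hA' := approx_iff hA
    obtain ⟨hL, h1⟩ := hJ hk D hD δ N p S hA'
    have e : (fun n => JG.law (p n) (S n)) = fun n => law (p n) (S n) := by
      funext n
      exact (law_eq _ _).symm
    have hL' : ∀ n, Prob (law (p n) (S n)) := fun n => by
      rw [law_eq]
      exact hL n
    refine ⟨hL', fun φ hφ => ⟨toG_congr e (h1 φ hφ), ?_⟩⟩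
    intro ξ c m a hB hξ hc ha hV hG
    have eB : (fun n => unif (HeightsB (p n) (S n) (ξ n))) =
        fun n => uniformOn {h | h ∈ F.Dom.Heights (p n) (S n) ∧ ∀ i, h (p n i) = ξ n i} := by
      funext n
      rw [heightsB_eq]
      rfl
    have hB' : ∀ n, IsProbabilityMeasure
        (uniformOn {h | h ∈ F.Dom.Heights (p n) (S n) ∧ ∀ i, h (p n i) = ξ n i}) := fun n => by
      have := hB n
      rw [heightsB_eq] at this
      exact this
    exact F.Dom.Arcs.norm_of_conv (hJ hk) hk hD hA' ξ (fun n i => (abs_one _).1 (hξ n i)) hφ hV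
      ha hc (hL := hB') (toG_congr eB hG)
  · have h1 := hnear n p S ξ A ((poly_iff p).1 hp) ((encl_iff p S).1 hS) hξ
    have e : HeightsB p S ξ = JG.HeightsB p S ξ := heightsB_eq p S ξ
    rw [e, heights_eq]
    exact h1

end Vale.Agent.P153.JG3

/-!
# P153-F: the final theorem with the only possible normalisation
-/

namespace Vale.Agent.P153.JG3

theorem main3 : Shape3 := shape3_of JG.main2

end Vale.Agent.P153.JG3
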