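import Vale.Agent.P153.F.Exist
import Vale.Agent.P153.F.Dom.Law
import Vale.Agent.P145.Dom.Vec

/-!
# P153-F: the final theorem (plane and Jordan domains) in the shape used by the hand-in
-/

set_option autoImplicit false

open MeasureTheory ProbabilityTheory Filter Topology

namespace Vale.Agent.P153.JG

open Vale.Agent.P153.GFF
open Vale.Agent.P145.PT (V TestOn)

/-- Convergence in law to a centred Gaussian variable of variance `v`. -/
def ToG {ι : Type} (l : Filter ι) (μ : ι → Measure (ℤ × ℤ → ℤ))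
    (_ : ∀ i, IsProbabilityMeasure (μ i)) (X : ι → (ℤ × ℤ → ℤ) → ℝ) (v : ℝ) : Prop :=
  0 ≤ v ∧ TendstoInDistribution X l id μ (gaussianReal 0 v.toNNReal)

theorem toG_of_vec {ι : Type} {l : Filter ι} {μ : ι → Measure (ℤ × ℤ → ℤ)}
    {hμ : ∀ i, IsProbabilityMeasure (μ i)} {X : ι → (ℤ × ℤ → ℤ) → ℝ} {v : ℝ}
    (h1 : (Matrix.of (fun _ _ : Fin 1 => v)).PosSemidef)
    (h2 : TendstoInDistribution (fun (i : ι) (h : ℤ × ℤ → ℤ) =>
      (WithLp.toLp 2 (fun _ => X i h) : EuclideanSpace ℝ (Fin 1))) l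
      (id : EuclideanSpace ℝ (Fin 1) → EuclideanSpace ℝ (Fin 1)) μ
      (multivariateGaussian 0 (Matrix.of (fun _ _ : Fin 1 => v)))) : ToG l μ hμ X v := by
  have hv : 0 ≤ v := by
    have := h1.diag_nonneg (i := (0 : Fin 1))
    simpa using this
  refine ⟨hv, ?_⟩
  have hc : Continuous fun x : EuclideanSpace ℝ (Fin 1) => x 0 := by fun_prop
  have h3 := h2.continuous_comp hc
  have h4 := measurePreserving_eval_multivariateGaussian (μ := (0 : EuclideanSpace ℝ (Fin 1))) h1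
    (i := (0 : Fin 1))
  have e0 : gaussianReal ((0 : EuclideanSpace ℝ (Fin 1)) 0)
      ((Matrix.of (fun _ _ : Fin 1 => v)) 0 0).toNNReal = gaussianReal 0 v.toNNReal := by
    simp
  rw [e0] at h4
  refine ⟨fun i => h3.forall_aemeasurable i, aemeasurable_id, ?_⟩
  have h5 := h3.tendsto
  have e1 : (⟨(gaussianReal 0 v.toNNReal).map id, Measure.isProbabilityMeasure_map aemeasurable_id⟩ :
      ProbabilityMeasure ℝ) = ⟨(multivariateGaussian 0 (Matrix.of (fun _ _ : Fin 1 => v))).map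
        ((fun x : EuclideanSpace ℝ (Fin 1) => x 0) ∘ id),
        Measure.isProbabilityMeasure_map h3.aemeasurable_limit⟩ := by
    apply Subtype.ext
    change (gaussianReal 0 v.toNNReal).map id = _
    rw [Measure.map_id, ← h4.map_eq]
    rfl
  rw [e1]
  exact h5

theorem sum_dirac_unif {s : Set (ℤ × ℤ → ℤ)} (hf : s.Finite) :
    ((s.ncard : ENNReal)⁻¹ • ∑ᶠ h ∈ s, Measure.dirac h) = uniformOn s := by
  classical
  have hms : MeasurableSet s := hf.measurableSet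
  refine Measure.ext fun t ht => ?_
  unfold uniformOn
  rw [cond_apply hms, finsum_mem_eq_finite_toFinset_sum _ hf, Measure.smul_apply,
    Measure.finsetSum_apply, Measure.count_apply_finite s hf,
    Measure.count_apply_finite (s ∩ t) (hf.inter_of_left t), smul_eq_mul]
  congr 1
  · rw [Set.ncard_eq_toFinset_card s hf]
  · have h1 : ∀ h ∈ hf.toFinset, (Measure.dirac h) t = if h ∈ t then 1 else 0 := by
      intro h _
      rw [Measure.dirac_apply' h ht, Set.indicator_apply]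
      rfl
    rw [Finset.sum_congr rfl h1, Finset.sum_boole]
    congr 2
    ext h
    simp

/-- The uniform distribution on the heights of the domain enclosed by `p`. -/
noncomputable def law {n : ℕ} (p : ZMod n → ℤ × ℤ) (S : Finset ((ℤ × ℤ) × Bool)) :
    Measure (ℤ × ℤ → ℤ) := uniformOn (F.Dom.Heights p S)

theorem law_eq {n : ℕ} {p : ZMod n → ℤ × ℤ} {S : Finset ((ℤ × ℤ) × Bool)}
    (hp : F.Dom.IsPolygon p) (hS : F.Dom.Encloses p S) : F.Dom.law p S = law p S :=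
  sum_dirac_unif (F.Dom.s_law p S hp hS).1

/-- Lattice polygons approximating the domain `D`. -/
def Approx (D : Set (ℝ × ℝ)) (δ : ℕ → ℝ) (N : ℕ → ℕ) (p : ∀ n, ZMod (N n) → ℤ × ℤ)
    (S : ℕ → Finset ((ℤ × ℤ) × Bool)) : Prop :=
  (∀ n, 0 < δ n ∧ F.Dom.IsPolygon (p n) ∧ F.Dom.Encloses (p n) (S n)) ∧
  Tendsto δ atTop (𝓝 0) ∧
  (∀ ε > 0, ∀ᶠ n in atTop, ∀ i, ∃ z ∈ D, dist (δ n • F.Dom.pt (p n i)) z < ε) ∧
  ∀ K ⊆ D, IsCompact K → ∀ᶠ n in atTop, K ⊆ F.Dom.region (δ n) (S n)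

/-- The Jordan domain part. -/
def JordanPart (κ : ℝ) : Prop :=
  ∀ D, F.Dom.JordanDomain D → ∀ δ N p S, Approx D δ N p S →
    ∃ hL : ∀ n, IsProbabilityMeasure (law (p n) (S n)), ∀ φ, TestOn D φ →
      ToG atTop (fun n => law (p n) (S n)) hL (fun n => F.Dom.fld (S n) (δ n) φ) (κ * V D φ)

/-- The covariance of a test function with itself. -/
theorem dirCov_self {D : Set (ℝ × ℝ)} (hD : Bornology.IsBounded D) {φ : ℝ × ℝ → ℝ}
    (hφ : TestOn D φ) : F.Dom.dirCov D φ φ = V D φ := by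
  have h1 : (fun z => φ z + φ z) = fun z => 2 * φ z := by
    funext z; ring
  have h2 : (fun z => φ z - φ z) = fun z => 0 * φ z := by
    funext z; ring
  unfold F.Dom.dirCov
  rw [h1, h2, Vale.Agent.P145.Dom.V_smul hD hφ, Vale.Agent.P145.Dom.V_smul hD hφ]
  ring

theorem jordanPart_of {κ : ℝ} (h : ∀ D, F.Dom.JordanDomain D → F.Dom.Conv κ D) :
    JordanPart κ := by
  intro D hD δ N p S hA
  have hb : Bornology.IsBounded D :=
    Vale.Agent.P145.Dom.JordanDomain.isBounded (D := D) hD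
  obtain ⟨hP, h1⟩ := h D hD δ N p S ⟨fun n => (hA.1 n).1, hA.2.1, fun n => (hA.1 n).2.1,
    fun n => (hA.1 n).2.2, hA.2.2.1, hA.2.2.2⟩
  have e : ∀ n, F.Dom.law (p n) (S n) = law (p n) (S n) := fun n =>
    law_eq (hA.1 n).2.1 (hA.1 n).2.2
  have e' : (fun n => F.Dom.law (p n) (S n)) = fun n => law (p n) (S n) := funext e
  have hL : ∀ n, IsProbabilityMeasure (law (p n) (S n)) := fun n => e n ▸ hP n
  refine ⟨hL, fun φ hφ => ?_⟩
  obtain ⟨h2, h3⟩ := h1 1 (fun _ => φ) fun _ => hφ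
  have key : ∀ (μ : ℕ → Measure (ℤ × ℤ → ℤ)) (hμ : ∀ n, IsProbabilityMeasure (μ n)),
      (fun n => F.Dom.law (p n) (S n)) = μ →
      ToG atTop μ hμ (fun n => F.Dom.fld (S n) (δ n) φ) (κ * V D φ) := by
    intro μ hμ he
    subst he
    have e2 : κ * V D φ = κ * F.Dom.dirCov D φ φ := by rw [dirCov_self hb hφ]
    rw [e2]
    exact toG_of_vec h2 h3
  exact key _ hL e'

/-- Variance of the Gaussian free field on the plane modulo constants. -/
noncomputable def gffVar (f : ℝ × ℝ → ℝ) : ℝ := ∫ x, ∫ y, green x y * f x * f y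

/-- The final theorem. -/
def JordanShape : Prop := ∃ P : Measure (ℤ × ℤ → ℤ), ∃ hP : IsProbabilityMeasure P,
    (∀ᵐ h ∂P, h 0 = 0) ∧
    (∀ D : ℕ → Finset (ℤ × ℤ), (∀ n, CoConn (D n)) → (∀ x, ∀ᶠ n in atTop, x ∈ D n) →
      OddLim P D) ∧
    ∃ κ : ℝ, 0 ≤ κ ∧
      Tendsto (fun x : ℤ × ℤ => (∫ h, (h x : ℝ) ^ 2 ∂P) / Real.log (len x)) cofinite
        (𝓝 (κ / Real.pi)) ∧
      (∀ f : ℝ × ℝ → ℝ, TestOn Set.univ f → ∫ x, f x = 0 →
        ToG (𝓝[>] 0) (fun _ => P) (fun _ => hP) (fun δ h => smear h δ f) (κ * gffVar f)) ∧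
      (0 < κ → JordanPart κ)

theorem shape_of (hJ : ∀ (Q : Measure A.Om) (κ' : ℝ), A.IsQ Q → Plane (Q.map A.rc) →
    SpecOut (Q.map A.rc) κ' → RowCLT (Q.map A.rc) κ' → 0 < κ' → ∀ D, F.Dom.JordanDomain D →
      F.Dom.Conv (4 * κ' / √3) D) : JordanShape := by
  obtain ⟨Q, κ', hQ, hP, hS, hC, hκ, hpr, ⟨h1, h2, _, _, _, _, _, h4, h5⟩, h6, _⟩ :=
    F.exists_all
  have h30 : (0 : ℝ) < √3 := by positivity
  refine ⟨(Q.map A.rc).map dbl, hpr, h1, h2, 4 * κ' / √3, h4, h5, fun f hf h0 => ?_,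
    fun hk => jordanPart_of (hJ Q κ' hQ hP hS hC ?_)⟩
  · obtain ⟨a1, a2⟩ := h6 1 (fun _ => f) fun _ => ⟨hf.1, hf.2.1, h0⟩
    exact toG_of_vec a1 a2
  · by_contra hn
    have h0 : κ' = 0 := le_antisymm (not_lt.1 hn) hκ
    rw [h0] at hk
    simp at hk

end Vale.Agent.P153.JG
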