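import Vale.Agent.P153.JG.Shape2
import Vale.Agent.P153.F.ArcsNorm

/-!
# P153-F: the final theorem, with the only possible normalisation for prescribed boundary values
-/

set_option autoImplicit false

open MeasureTheory ProbabilityTheory Filter Topology

namespace Vale.Agent.P153.JG3

/-- Laws of random heights. -/
abbrev Law := Measure (ℤ × ℤ → ℤ)

/-- `μ` has mass one. -/
abbrev Prob (μ : Law) : Prop := IsProbabilityMeasure μ

/-- The distance to the origin of the point `x.1 (1, 0) + x.2 (1/2, √3/2)` of the plane. -/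
noncomputable def len (x : ℤ × ℤ) : ℝ := √((x.1 : ℝ) ^ 2 + x.1 * x.2 + (x.2 : ℝ) ^ 2)

/-- The uniform distribution on a finite set. -/
noncomputable def unif (s : Set (ℤ × ℤ → ℤ)) : Law := uniformOn s

/-- Expectation. -/
noncomputable def mean (μ : Law) (F : (ℤ × ℤ → ℤ) → ℝ) : ℝ := ∫ h, F h ∂μ

/-- Neighbours in the triangular lattice. -/
def Adj (x y : ℤ × ℤ) : Prop := len (y - x) = 1

/-- The complement of the finite set `D` is connected. -/
def CoConnected (D : Finset (ℤ × ℤ)) : Prop :=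
  ∀ x y, x ∉ D → y ∉ D → Relation.ReflTransGen (fun u v => Adj u v ∧ v ∉ D) x y

/-- Odd heights on `D` with steps `0, ±2` along the edges and with value `±1` at the boundary
vertices (those with a neighbour outside `D`); the value off `D` is a dummy. -/
def HeightsOn (D : Finset (ℤ × ℤ)) : Set (ℤ × ℤ → ℤ) :=
  {h | (∀ x, Odd (h x)) ∧ (∀ x ∈ D, ∀ y ∈ D, Adj x y → |h x - h y| ≤ 2) ∧
    (∀ x ∈ D, (∃ y, Adj x y ∧ y ∉ D) → |h x| = 1) ∧ ∀ x, x ∉ D → h x = -1}

/-- The functions with the same differences as `a` on `B`. -/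
def Pat (B : Finset (ℤ × ℤ)) (a : ℤ × ℤ → ℤ) : Set (ℤ × ℤ → ℤ) :=
  {h | ∀ x ∈ B, ∀ y ∈ B, h x - h y = a x - a y}

/-- `P` is the local limit, modulo constants, of the uniform measures on `HeightsOn (D n)`. -/
def IsLocalLimit (P : Law) (D : ℕ → Finset (ℤ × ℤ)) : Prop :=
  ∀ (B : Finset (ℤ × ℤ)) (a : ℤ × ℤ → ℤ),
    Tendsto (fun n => ((HeightsOn (D n) ∩ Pat B a).ncard : ℝ) / (HeightsOn (D n)).ncard) atTop
      (𝓝 (P.real (Pat B a)))

/-- The hat function of the origin (affine on the triangles), in lattice coordinates. -/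
noncomputable def hat (s t : ℝ) : ℝ := max 0 (1 - max |s| (max |t| |s + t|))

/-- The extension of `h` to the plane, affine on each triangle of the lattice, at the point `z`. -/
noncomputable def interp (h : ℤ × ℤ → ℤ) (z : ℝ × ℝ) : ℝ :=
  ∑ᶠ v : ℤ × ℤ, (h v : ℝ) * hat (z.1 - z.2 / √3 - v.1) (2 * z.2 / √3 - v.2)

/-- Smooth functions with compact support contained in `D`. -/
def TestOn (D : Set (ℝ × ℝ)) (φ : ℝ × ℝ → ℝ) : Prop :=
  ContDiff ℝ ((⊤ : ℕ∞) : WithTop ℕ∞) φ ∧ HasCompactSupport φ ∧ tsupport φ ⊆ D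

/-- Convergence in law of the random variables `X i` (under `μ i`) to the centred Gaussian law
with variance `v`. -/
def ToGauss {ι : Type} (l : Filter ι) (μ : ι → Law) (_ : ∀ i, Prob (μ i))
    (X : ι → (ℤ × ℤ → ℤ) → ℝ) (v : ℝ) : Prop :=
  0 ≤ v ∧ TendstoInDistribution X l id μ (gaussianReal 0 v.toNNReal)

/-! ### Jordan domains -/

/-- A bounded Jordan domain: the image of the open unit disc under a homeomorphism of the plane
(by the theorem of Schoenflies these are exactly the interiors of Jordan curves). -/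
def JordanDomain (D : Set (ℝ × ℝ)) : Prop := 
  ∃ Φ : (ℝ × ℝ) ≃ₜ (ℝ × ℝ), D = Φ '' {z | z.1 ^ 2 + z.2 ^ 2 < 1}

/-- `∫ |∇ψ|²`. -/
noncomputable def energy (ψ : ℝ × ℝ → ℝ) : ℝ :=
  ∫ z, (fderiv ℝ ψ z (1, 0) ^ 2 + fderiv ℝ ψ z (0, 1) ^ 2)

/-- `⟨φ, (-Δ_D)⁻¹ φ⟩ = sup_ψ (2 ∫ φ ψ - ∫ |∇ψ|²)`, `ψ` smooth with compact support in `D`. -/
noncomputable def V (D : Set (ℝ × ℝ)) (φ : ℝ × ℝ → ℝ) : ℝ :=
  ⨆ ψ : {ψ // TestOn D ψ}, (2 * ∫ z, φ z * ψ.1 z) - energy ψ.1

/-- The triangles of the lattice: `(v, false)` has the corners `v, v + (1, 0), v + (0, 1)`;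
`(v, true)` has the corners `v + (1, 0), v + (0, 1), v + (1, 1)`. -/
abbrev Tri := (ℤ × ℤ) × Bool

/-- A simple closed lattice polygon `p 0, p 1, …, p (n - 1), p 0`. -/
def IsPolygon {n : ℕ} (p : ZMod n → ℤ × ℤ) : Prop :=
  2 < n ∧ Function.Injective p ∧ ∀ i, Adj (p i) (p (i + 1))

/-- The edge between the lattice points `a` and `b` is an edge of the polygon `p`. -/
def IsEdge {n : ℕ} (p : ZMod n → ℤ × ℤ) (a b : ℤ × ℤ) : Prop :=
  ∃ i, (p i = a ∧ p (i + 1) = b) ∨ (p i = b ∧ p (i + 1) = a)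

/-- The edge `ab` is in `p` if and only if exactly one of its two sides `s`, `t` is in `S`. -/
def Side {n : ℕ} (p : ZMod n → ℤ × ℤ) (S : Finset Tri) (a b : ℤ × ℤ) (s t : Tri) : Prop :=
  IsEdge p a b ↔ ¬ (s ∈ S ↔ t ∈ S)

/-- The finite set `S` of triangles is the set of the triangles enclosed by the polygon `p`: the
edges of `p` are exactly the edges of the lattice with exactly one of their two sides in `S`. -/
def Encloses {n : ℕ} (p : ZMod n → ℤ × ℤ) (S : Finset Tri) : Prop :=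
  ∀ v : ℤ × ℤ, Side p S v (v + (1, 0)) (v, false) (v - (0, 1), true) ∧
    Side p S v (v + (0, 1)) (v, false) (v - (1, 0), true) ∧
    Side p S (v + (1, 0)) (v + (0, 1)) (v, false) (v, true)

/-- The corners of a triangle. -/
def corners (t : Tri) : Finset (ℤ × ℤ) :=
  if t.2 then {t.1 + (1, 0), t.1 + (0, 1), t.1 + (1, 1)}
  else {t.1, t.1 + (1, 0), t.1 + (0, 1)}

/-- The vertices of the domain: the corners of the enclosed triangles. -/
def verts (S : Finset Tri) : Finset (ℤ × ℤ) := S.biUnion corners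

/-- The heights of the domain enclosed by `p`: odd, with steps `0` or `±2` between adjacent
vertices, with values `±1` on the polygon (and the dummy value `0` off the domain). -/
def Heights {n : ℕ} (p : ZMod n → ℤ × ℤ) (S : Finset Tri) : Set (ℤ × ℤ → ℤ) :=
  {h | (∀ v ∈ verts S, Odd (h v)) ∧ (∀ i, |h (p i)| = 1) ∧
    (∀ v ∈ verts S, ∀ w ∈ verts S, Adj v w → |h v - h w| ≤ 2) ∧
    ∀ v, v ∉ verts S → h v = 0}

/-- The heights with the values `ξ` on the polygon. -/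
def HeightsB {n : ℕ} (p : ZMod n → ℤ × ℤ) (S : Finset Tri) (ξ : ZMod n → ℤ) : Set (ℤ × ℤ → ℤ) :=
  {h ∈ Heights p S | ∀ i, h (p i) = ξ i}

/-- The functions which differ by at most `2` from an element of `A`. -/
def Near (A : Set (ℤ × ℤ → ℤ)) : Set (ℤ × ℤ → ℤ) := {g | ∃ h ∈ A, ∀ v, |h v - g v| ≤ 2}

/-- The uniform distribution on the heights. -/
noncomputable def law {n : ℕ} (p : ZMod n → ℤ × ℤ) (S : Finset Tri) : Law := unif (Heights p S)

/-- The point of the plane. -/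
noncomputable def pt (v : ℤ × ℤ) : ℝ × ℝ := (v.1 + v.2 / 2, √3 / 2 * v.2)

/-- The closed domain `D_δ`: the union of the enclosed triangles of the lattice of mesh `δ`. -/
noncomputable def region (δ : ℝ) (S : Finset Tri) : Set (ℝ × ℝ) :=
  {z | ∃ t ∈ S, z ∈ convexHull ℝ ((fun v => δ • pt v) '' (corners t : Set (ℤ × ℤ)))}

open Classical in
/-- `h_δ(φ) = ∫ h_δ(z) φ(z) dz`, where `h_δ` is affine on each triangle of `D_δ` and is extended by
`0` outside `D_δ`. -/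
noncomputable def fld (S : Finset Tri) (δ : ℝ) (φ : ℝ × ℝ → ℝ) (h : ℤ × ℤ → ℤ) : ℝ :=
  ∫ z : ℝ × ℝ, (if z ∈ region δ S then interp h (z.1 / δ, z.2 / δ) else 0) * φ z

/-- Lattice polygons `p n` of mesh `δ n → 0` approximating the domain `D`: the vertices of the
polygons are eventually within any given distance of `D`, and every compact subset of `D` is
eventually enclosed. (Both follow from the uniform convergence of the boundary curves.) -/
def Approx (D : Set (ℝ × ℝ)) (δ : ℕ → ℝ) (N : ℕ → ℕ) (p : ∀ n, ZMod (N n) → ℤ × ℤ)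
    (S : ℕ → Finset Tri) : Prop :=
  (∀ n, 0 < δ n ∧ IsPolygon (p n) ∧ Encloses (p n) (S n)) ∧ Tendsto δ atTop (𝓝 0) ∧
  (∀ ε > 0, ∀ᶠ n in atTop, ∀ i, ∃ z ∈ D, dist (δ n • pt (p n i)) z < ε) ∧
  ∀ K ⊆ D, IsCompact K → ∀ᶠ n in atTop, K ⊆ region (δ n) (S n)

/-! ### Transfer -/

theorem adj_iff (x y : ℤ × ℤ) : Adj x y ↔ GFF.Adj x y := by
  have h1 : Adj x y ↔ (y.1 - x.1) ^ 2 + (y.1 - x.1) * (y.2 - x.2) + (y.2 - x.2) ^ 2 = 1 := by
    unfold Adj len
    rw [Real.sqrt_eq_one]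
    constructor
    · intro h
      have h' : (((y - x).1 ^ 2 + (y - x).1 * (y - x).2 + (y - x).2 ^ 2 : ℤ) : ℝ) = ((1 : ℤ) : ℝ) := by
        push_cast
        exact h
      exact_mod_cast h'
    · intro h
      have h' : (((y - x).1 ^ 2 + (y - x).1 * (y - x).2 + (y - x).2 ^ 2 : ℤ) : ℝ) = ((1 : ℤ) : ℝ) := by
        rw [show (y - x).1 = y.1 - x.1 from rfl, show (y - x).2 = y.2 - x.2 from rfl, h]
      push_cast at h'
      exact h'
  rw [h1]
  unfold GFF.Adj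
  generalize y.1 - x.1 = a
  generalize y.2 - x.2 = b
  constructor
  · intro h
    have ha : a ^ 2 < 2 := by nlinarith [sq_nonneg (a + 2 * b)]
    have hb : b ^ 2 < 2 := by nlinarith [sq_nonneg (b + 2 * a)]
    have ha1 : a < 2 := by nlinarith
    have ha2 : -2 < a := by nlinarith
    have hb1 : b < 2 := by nlinarith
    have hb2 : -2 < b := by nlinarith
    interval_cases a <;> interval_cases b <;> simp_all
  · intro h
    simp only [Set.mem_insert_iff, Set.mem_singleton_iff, Prod.mk.injEq] at h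
    rcases h with ⟨rfl, rfl⟩ | ⟨rfl, rfl⟩ | ⟨rfl, rfl⟩ | ⟨rfl, rfl⟩ | ⟨rfl, rfl⟩ | ⟨rfl, rfl⟩ <;>
      norm_num

theorem adj_eq : Adj = GFF.Adj := by
  funext x y
  exact propext (adj_iff x y)

theorem co_iff (D : Finset (ℤ × ℤ)) : CoConnected D ↔ GFF.CoConn D := by
  unfold CoConnected
  rw [adj_eq]
  exact Iff.rfl

theorem abs_one (a : ℤ) : |a| = 1 ↔ a = 1 ∨ a = -1 := abs_eq zero_le_one

theorem on_eq (D : Finset (ℤ × ℤ)) : HeightsOn D = GFF.Odd2 D := by
  unfold HeightsOn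
  rw [adj_eq]
  simp only [abs_one]
  rfl

theorem lim_iff (P : Law) (D : ℕ → Finset (ℤ × ℤ)) : IsLocalLimit P D ↔ GFF.OddLim P D := by
  unfold IsLocalLimit
  simp only [on_eq]
  exact Iff.rfl

theorem poly_iff {n : ℕ} (p : ZMod n → ℤ × ℤ) : IsPolygon p ↔ F.Dom.IsPolygon p := by
  unfold IsPolygon
  rw [adj_eq]
  exact Iff.rfl

theorem encl_iff {n : ℕ} (p : ZMod n → ℤ × ℤ) (S : Finset Tri) :
    Encloses p S ↔ F.Dom.Encloses p S := by
  constructor
  · intro h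
    exact ⟨fun v => (h v).1, fun v => (h v).2.1, fun v => (h v).2.2⟩
  · intro h v
    exact ⟨h.1 v, h.2.1 v, h.2.2 v⟩

theorem heights_eq {n : ℕ} (p : ZMod n → ℤ × ℤ) (S : Finset Tri) :
    Heights p S = F.Dom.Heights p S := by
  unfold Heights
  rw [adj_eq]
  ext h
  constructor
  · rintro ⟨h1, h2, h3, h4⟩
    exact ⟨h1, fun i => (abs_one _).1 (h2 i), fun v hv w hw a =>
      (F.Dom.Arcs.par (h1 v hv) (h1 w hw)).2 (h3 v hv w hw a), h4⟩
  · rintro ⟨h1, h2, h3, h4⟩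
    exact ⟨h1, fun i => (abs_one _).2 (h2 i), fun v hv w hw a =>
      (F.Dom.Arcs.par (h1 v hv) (h1 w hw)).1 (h3 v hv w hw a), h4⟩

theorem heightsB_eq {n : ℕ} (p : ZMod n → ℤ × ℤ) (S : Finset Tri) (ξ : ZMod n → ℤ) :
    HeightsB p S ξ = {h | h ∈ F.Dom.Heights p S ∧ ∀ i, h (p i) = ξ i} := by
  unfold HeightsB
  rw [heights_eq]

theorem law_eq {n : ℕ} (p : ZMod n → ℤ × ℤ) (S : Finset Tri) : law p S = JG.law p S := by
  unfold law unif
  rw [heights_eq]
  rfl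

theorem approx_iff {D : Set (ℝ × ℝ)} {δ : ℕ → ℝ} {N : ℕ → ℕ} {p : ∀ n, ZMod (N n) → ℤ × ℤ}
    {S : ℕ → Finset Tri} (h : Approx D δ N p S) : JG.Approx D δ N p S :=
  ⟨fun n => ⟨(h.1 n).1, (poly_iff _).1 (h.1 n).2.1, (encl_iff _ _).1 (h.1 n).2.2⟩, h.2⟩

theorem toG_congr {μ ν : ℕ → Law} {hμ : ∀ n, Prob (μ n)} {hν : ∀ n, Prob (ν n)}
    (e : μ = ν) {X : ℕ → (ℤ × ℤ → ℤ) → ℝ} {v : ℝ} (h : JG.ToG atTop μ hμ X v) :
    JG.ToG atTop ν hν X v := by
  subst e
  exact h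

/-- The theorem. -/
def Shape3 : Prop := ∃ P : Law, ∃ _ : Prob P,
    (∀ᵐ h ∂P, h 0 = 0) ∧
    (∀ D : ℕ → Finset (ℤ × ℤ), (∀ n, CoConnected (D n)) → (∀ x, ∀ᶠ n in atTop, x ∈ D n) →
      IsLocalLimit P D) ∧
    ∃ κ : ℝ, 0 ≤ κ ∧
      Tendsto (fun x => (mean P fun h => (h x : ℝ) ^ 2) / Real.log (len x)) cofinite
        (𝓝 (κ / Real.pi)) ∧
      ((∃ c > 0, ∀ (D : Finset (ℤ × ℤ)) (n : ℕ), CoConnected D → (∀ x, len x ≤ n → x ∈ D) →
        c * Real.log n ≤ mean (unif {h | (∀ x, x ∉ D → h x = 0) ∧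
          ∀ x y, Adj x y → |h x - h y| ≤ 1}) fun h => (h 0 : ℝ) ^ 2) → 0 < κ) ∧
      (0 < κ → ∀ D : Set (ℝ × ℝ), JordanDomain D → ∀ (δ : ℕ → ℝ) (N : ℕ → ℕ)
        (p : ∀ n, ZMod (N n) → ℤ × ℤ) (S : ℕ → Finset Tri), Approx D δ N p S →
        ∃ hL : ∀ n, Prob (law (p n) (S n)), ∀ φ, TestOn D φ →
          ToGauss atTop (fun n => law (p n) (S n)) hL (fun n => fld (S n) (δ n) φ)
            (κ * V D φ) ∧
          ∀ (ξ : ∀ n, ZMod (N n) → ℤ) (c m : ℕ → ℝ) (a : ℝ)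
            (hB : ∀ n, Prob (unif (HeightsB (p n) (S n) (ξ n)))), (∀ n i, |ξ n i| = 1) →
            (∀ n, 0 < c n) → 0 < a → 0 < V D φ →
            ToGauss atTop (fun n => unif (HeightsB (p n) (S n) (ξ n))) hB
              (fun n h => (fld (S n) (δ n) φ h - m n) / c n) (a ^ 2 * V D φ) →
            Tendsto c atTop (𝓝 (√κ / a))) ∧
      ∀ (n : ℕ) (p : ZMod n → ℤ × ℤ) (S : Finset Tri) (ξ : ZMod n → ℤ) (A : Set (ℤ × ℤ → ℤ)),
        IsPolygon p → Encloses p S → (∀ i, |ξ i| = 1) →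
        ((HeightsB p S ξ ∩ A).ncard : ℝ) / (HeightsB p S ξ).ncard ≤
          ((Heights p S ∩ Near A).ncard : ℝ) / (Heights p S).ncard

theorem shape3_of (h : JG.JordanShape2) : Shape3 := by
  obtain ⟨P, hP, h0, hloc, κ, hκ, hlog, hgm, hJ, hnear⟩ := h
  refine ⟨P, hP, h0, fun D hD hx => (lim_iff P D).2 (hloc D (fun n => (co_iff _).1 (hD n)) hx),
    κ, hκ, hlog, fun hg => hgm ?_, fun hk D hD δ N p S hA => ?_, fun n p S ξ A hp hS hξ => ?_⟩
  · obtain ⟨c, hc, h⟩ := hg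
    refine ⟨c, hc, fun D n hD hx => ?_⟩
    have h1 := h D n ((co_iff D).2 hD) hx
    unfold mean unif at h1
    rw [adj_eq] at h1
    exact h1
  · have hA' := approx_iff hA
    obtain ⟨hL, h1⟩ := hJ hk D hD δ N p S hA'
    have e : (fun n => JG.law (p n) (S n)) = fun n => law (p n) (S n) := by
      funext n
      exact (law_eq _ _).symm
    have hL' : ∀ n, Prob (law (p n) (S n)) := fun n => by
      rw [law_eq]
      exact hL n
    refine ⟨hL', fun φ hφ => ⟨toG_congr e (h1 φ hφ), ?_⟩⟩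
    intro ξ c m a hB hξ hc ha hV hG
    have eB : (fun n => unif (HeightsB (p n) (S n) (ξ n))) =
        fun n => uniformOn {h | h ∈ F.Dom.Heights (p n) (S n) ∧ ∀ i, h (p n i) = ξ n i} := by
      funext n
      rw [heightsB_eq]
      rfl
    have hB' : ∀ n, IsProbabilityMeasure
        (uniformOn {h | h ∈ F.Dom.Heights (p n) (S n) ∧ ∀ i, h (p n i) = ξ n i}) := fun n => by
      have := hB n
      rw [heightsB_eq] at this
      exact this
    exact F.Dom.Arcs.norm_of_conv (hJ hk) hk hD hA' ξ (fun n i => (abs_one _).1 (hξ n i)) hφ hV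
      ha hc (hL := hB') (toG_congr eB hG)
  · have h1 := hnear n p S ξ A ((poly_iff p).1 hp) ((encl_iff p S).1 hS) hξ
    have e : HeightsB p S ξ = JG.HeightsB p S ξ := heightsB_eq p S ξ
    rw [e, heights_eq]
    exact h1

end Vale.Agent.P153.JG3
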